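import Vale.Agent.P344.Asym

open Filter
open scoped Nat

/-- Linear circuits (gates `u + v`, `u - v`, `c u`, arbitrary complex `c`) computing the
discrete Fourier transform of order `n`.
(1) Whichever `h ≤ n` gates are disregarded, the product of the growth factors of the other gates
(`2` for an addition or a subtraction, `max 1 |c|` for a multiplication by `c`) is at least
`√((n - h)!)`.
(2) There are at least `2 n - 2` additions and subtractions.
(3) If at most `(1 - ε) n` gates multiply by numbers of modulus greater than `B`, then the circuit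
has at least `ε / (4 log B) n log n` gates (large `n`).
(4) A circuit with at most `K n` gates has at least `(1 - 2 K δ - ε) n` multiplications by numbers
of modulus greater than `n ^ δ` (large `n`).
(5) Every circuit has at least `(3 - ε) n` gates (large `n`). -/
theorem Vale.Agent.Results.P344.TruncatedVolume.result :
    (∀ (n s : ℕ) (C : _root_.P344.Circuit n s), 1 ≤ n → C.IsDFT → ∀ H : Finset (Fin s),
      H.card ≤ n → ((n - H.card)! : ℝ) ≤ (∏ t ∈ Hᶜ, (C.gate t).growth) ^ 2) ∧
    (∀ (n s : ℕ) (C : _root_.P344.Circuit n s), 2 ≤ n → C.IsDFT →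
      2 * n - 2 ≤ Nat.card {t // (C.gate t).IsAdd}) ∧
    (∀ ε B : ℝ, 0 < ε → 2 ≤ B → ∀ᶠ n : ℕ in atTop, ∀ (s : ℕ) (C : _root_.P344.Circuit n s),
      C.IsDFT → (Nat.card {t // (C.gate t).IsBig B} : ℝ) ≤ (1 - ε) * n →
      ε / (4 * Real.log B) * (n * Real.log n) ≤ s) ∧
    (∀ K δ ε : ℝ, 0 < K → 0 < δ → 0 < ε → ∀ᶠ n : ℕ in atTop, ∀ (s : ℕ)
      (C : _root_.P344.Circuit n s), C.IsDFT → (s : ℝ) ≤ K * n →
      (1 - 2 * K * δ - ε) * n ≤ Nat.card {t // (C.gate t).IsBig ((n : ℝ) ^ δ)}) ∧
    (∀ ε : ℝ, 0 < ε → ∀ᶠ n : ℕ in atTop, ∀ (s : ℕ) (C : _root_.P344.Circuit n s), C.IsDFT →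
      (3 - ε) * n ≤ s) := by
  refine ⟨fun n s C hn hC H hH => _root_.P344.main1 (by omega) C hC H hH, ?_, ?_, ?_,
    fun ε hε => _root_.P344.corC ε hε⟩
  · intro n s C hn hC
    classical
    rw [_root_.P344.card_add]
    exact _root_.P344.main2 C hC hn
  · intro ε B hε hB
    filter_upwards [_root_.P344.corA ε B hε hB] with n h s C hC hbig
    rw [_root_.P344.card_big] at hbig
    exact h s C hC hbig
  · intro K δ ε hK hδ hε
    filter_upwards [_root_.P344.corB K δ ε hK hδ hε] with n h s C hC hs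
    rw [_root_.P344.card_big]
    exact h s C hC hs
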